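import Mathlib

/-!
# The deletion lemma (G)

`R a b` means `b ∈ N[a]` (closed out-neighbourhood); relations are finite sets of pairs.
-/

namespace Vale.Agent.P038.H710

open Finset

variable {V : Type*} [Fintype V]

open Classical in
/-- Closed out-neighbourhood of a set. -/
noncomputable def cl (R : V → V → Prop) (X : Finset V) : Finset V :=
  univ.filter fun u => ∃ x ∈ X, R x u

theorem mem_cl {R : V → V → Prop} {X : Finset V} {u : V} : u ∈ cl R X ↔ ∃ x ∈ X, R x u := by
  classical
  simp [cl]

/-- `|N[N[v]]| + 1 < 2 |N[v]|` for all `v`, i.e. `|N₂(v)| < |N₁(v)|`. -/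
def CE (R : V → V → Prop) : Prop :=
  (∀ a, R a a) ∧ (∀ a b, R a b → R b a → a = b) ∧
    ∀ v, (cl R (cl R {v})).card + 1 < 2 * (cl R {v}).card

theorem subset_cl {R : V → V → Prop} (h : ∀ a, R a a) (X : Finset V) : X ⊆ cl R X :=
  fun x hx => mem_cl.2 ⟨x, hx, h x⟩

theorem cl_mono {R : V → V → Prop} {X Y : Finset V} (h : X ⊆ Y) : cl R X ⊆ cl R Y := by
  intro u hu
  obtain ⟨x, hx, hxu⟩ := mem_cl.1 hu
  exact mem_cl.2 ⟨x, h hx, hxu⟩

/-- An arc-minimal counterexample. -/
def Min (R : V → V → Prop) : Prop :=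
  CE R ∧ ∀ R' : V → V → Prop, (∀ a b, R' a b → R a b) → CE R' → ∀ a b, R a b → R' a b

theorem exists_min {R : V → V → Prop} (h : CE R) : ∃ R' : V → V → Prop, Min R' := by
  classical
  set toR : Finset (V × V) → V → V → Prop := fun r a b => (a, b) ∈ r with htoR
  set F : Finset (Finset (V × V)) := univ.filter fun r => CE (toR r) with hF
  have hne : F.Nonempty := by
    refine ⟨univ.filter fun p => R p.1 p.2, Finset.mem_filter.2 ⟨Finset.mem_univ _, ?_⟩⟩
    have : toR (univ.filter fun p => R p.1 p.2) = R := by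
      funext a b
      simp [htoR]
    rw [this]
    exact h
  obtain ⟨r, hr, hmin⟩ := Finset.exists_min_image F Finset.card hne
  refine ⟨toR r, (Finset.mem_filter.1 hr).2, ?_⟩
  intro R' hsub hCE a b hab
  set r' : Finset (V × V) := univ.filter fun p => R' p.1 p.2 with hr'
  have e : toR r' = R' := by
    funext a b
    simp [htoR, hr']
  have h1 := hmin r' (Finset.mem_filter.2 ⟨Finset.mem_univ _, by rw [e]; exact hCE⟩)
  have h2 : r' ⊆ r := by
    rintro ⟨x, y⟩ hxy
    have : R' x y := by simpa [hr'] using hxy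
    exact hsub x y this
  have h3 : r' = r := Finset.eq_of_subset_of_card_le h2 h1
  have h4 : (a, b) ∈ r' := by rw [h3]; exact hab
  simpa [hr'] using h4

theorem G {R : V → V → Prop} (hM : Min R) (X : Finset V) (hX : cl R X ≠ X) :
    (cl R (cl R X)).card + X.card < 2 * (cl R X).card := by
  classical
  obtain ⟨⟨hrefl, hanti, hce⟩, hmin⟩ := hM
  by_contra hcon
  push Not at hcon
  set L := cl R X \ X with hL
  have hXc : X ⊆ cl R X := subset_cl hrefl X
  set d : Finset V → ℤ := fun T => ((cl R T \ X).card : ℤ) - 2 * T.card with hd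
  have hclX : (cl R X).card = X.card + L.card := by
    rw [hL, Finset.card_sdiff_of_subset hXc]
    have := Finset.card_le_card hXc
    omega
  have hccX : (cl R (cl R X)).card = X.card + (cl R L \ X).card := by
    have e1 : cl R (cl R X) = X ∪ (cl R L \ X) := by
      ext z
      rw [Finset.mem_union, Finset.mem_sdiff]
      constructor
      · intro hz
        by_cases hzX : z ∈ X
        · exact Or.inl hzX
        · refine Or.inr ⟨?_, hzX⟩
          obtain ⟨c, hc, hcz⟩ := mem_cl.1 hz
          by_cases hcX : c ∈ X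
          · exact subset_cl hrefl _ (Finset.mem_sdiff.2 ⟨mem_cl.2 ⟨c, hcX, hcz⟩, hzX⟩)
          · exact mem_cl.2 ⟨c, Finset.mem_sdiff.2 ⟨hc, hcX⟩, hcz⟩
      · rintro (hz | ⟨hz, _⟩)
        · exact subset_cl hrefl _ (hXc hz)
        · exact cl_mono Finset.sdiff_subset hz
    rw [e1, Finset.card_union_of_disjoint]
    rw [Finset.disjoint_left]
    intro z hz hz'
    exact (Finset.mem_sdiff.1 hz').2 hz
  have hdL : 0 ≤ d L := by
    simp only [hd]
    omega
  have hLne : L.Nonempty := by
    rw [Finset.nonempty_iff_ne_empty]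
    intro h0
    apply hX
    rw [hL, Finset.sdiff_eq_empty_iff_subset] at h0
    exact Finset.Subset.antisymm h0 hXc
  obtain ⟨T, hT, hTmin⟩ := Finset.exists_min_image L.ssubsets d
    ⟨∅, Finset.mem_ssubsets.2 (Finset.empty_ssubset.2 hLne)⟩
  rw [Finset.mem_ssubsets] at hT
  have hd0 : d ∅ = 0 := by
    have : cl R (∅ : Finset V) = ∅ := by
      rw [Finset.eq_empty_iff_forall_notMem]
      intro z hz
      obtain ⟨x, hx, _⟩ := mem_cl.1 hz
      simp at hx
    simp [hd, this]
  have hTall : ∀ S ⊆ L, d T ≤ d S := by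
    intro S hS
    by_cases hSL : S = L
    · subst hSL
      have := hTmin ∅ (Finset.mem_ssubsets.2 (Finset.empty_ssubset.2 hLne))
      omega
    · exact hTmin S (Finset.mem_ssubsets.2 (Finset.ssubset_iff_subset_ne.2 ⟨hS, hSL⟩))
  -- the new relation
  set R' : V → V → Prop := fun a b => R a b ∧ ¬ (a ∈ X ∧ b ∈ L \ T) with hR'
  have hR'R : ∀ a b, R' a b → R a b := fun a b h => h.1
  have hclsub : ∀ S : Finset V, cl R' S ⊆ cl R S := by
    intro S z hz
    obtain ⟨x, hx, hxz⟩ := mem_cl.1 hz
    exact mem_cl.2 ⟨x, hx, hxz.1⟩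
  have hCE' : CE R' := by
    refine ⟨?_, ?_, ?_⟩
    · intro a
      refine ⟨hrefl a, ?_⟩
      rintro ⟨h1, h2⟩
      exact (Finset.mem_sdiff.1 (Finset.mem_sdiff.1 h2).1).2 h1
    · intro a b h1 h2
      exact hanti a b h1.1 h2.1
    · intro v
      have hv := hce v
      by_cases hvX : v ∈ X
      · set D := cl R {v} ∩ (L \ T) with hD
        set E := cl R D \ (cl R T ∪ X) with hE
        have hDL : D ⊆ L := fun z hz =>
          (Finset.mem_sdiff.1 (Finset.mem_inter.1 hz).2).1
        have hDcl : D ⊆ cl R {v} := Finset.inter_subset_left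
        have e1 : cl R' {v} = cl R {v} \ D := by
          ext z
          rw [mem_cl, Finset.mem_sdiff, mem_cl]
          constructor
          · rintro ⟨x, hx, hxz⟩
            refine ⟨⟨x, hx, hxz.1⟩, ?_⟩
            intro hz
            rw [Finset.mem_singleton] at hx
            subst hx
            exact hxz.2 ⟨hvX, (Finset.mem_inter.1 hz).2⟩
          · rintro ⟨⟨x, hx, hxz⟩, hz⟩
            refine ⟨x, hx, hxz, ?_⟩
            rintro ⟨h1, h2⟩
            exact hz (Finset.mem_inter.2 ⟨mem_cl.2 ⟨x, hx, hxz⟩, h2⟩)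
        have hEsub : E ⊆ cl R (cl R {v}) := by
          intro z hz
          exact cl_mono hDcl (Finset.mem_sdiff.1 hz).1
        have hvcl : cl R {v} ⊆ cl R X := cl_mono (Finset.singleton_subset_iff.2 hvX)
        have e2 : cl R' (cl R' {v}) ⊆ cl R (cl R {v}) \ E := by
          intro z hz
          obtain ⟨c, hc, hcz⟩ := mem_cl.1 hz
          rw [e1, Finset.mem_sdiff] at hc
          refine Finset.mem_sdiff.2 ⟨mem_cl.2 ⟨c, hc.1, hcz.1⟩, ?_⟩
          intro hzE
          have hzn := (Finset.mem_sdiff.1 hzE).2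
          have hzT : z ∉ cl R T := fun h => hzn (Finset.mem_union_left _ h)
          have hzX : z ∉ X := fun h => hzn (Finset.mem_union_right _ h)
          by_cases hcX : c ∈ X
          · have hzL : z ∈ L := Finset.mem_sdiff.2 ⟨mem_cl.2 ⟨c, hcX, hcz.1⟩, hzX⟩
            have hzT' : z ∉ T := fun h => hzT (subset_cl hrefl _ h)
            exact hcz.2 ⟨hcX, Finset.mem_sdiff.2 ⟨hzL, hzT'⟩⟩
          · have hcL : c ∈ L := Finset.mem_sdiff.2 ⟨hvcl hc.1, hcX⟩
            have hcT : c ∈ T := by
              by_contra hcT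
              exact hc.2 (Finset.mem_inter.2 ⟨hc.1, Finset.mem_sdiff.2 ⟨hcL, hcT⟩⟩)
            exact hzT (mem_cl.2 ⟨c, hcT, hcz.1⟩)
        have hkey : 2 * D.card ≤ E.card := by
          have hTD : T ∪ D ⊆ L := Finset.union_subset hT.1 hDL
          have h1 := hTall (T ∪ D) hTD
          have hdis : Disjoint T D := by
            rw [Finset.disjoint_left]
            intro z hz hz'
            exact (Finset.mem_sdiff.1 (Finset.mem_inter.1 hz').2).2 hz
          have e3 : cl R (T ∪ D) \ X = (cl R T \ X) ∪ E := by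
            ext z
            simp only [Finset.mem_sdiff, Finset.mem_union, hE, mem_cl]
            constructor
            · rintro ⟨⟨x, hx, hxz⟩, hzX⟩
              by_cases hzT : ∃ x ∈ T, R x z
              · exact Or.inl ⟨hzT, hzX⟩
              · refine Or.inr ⟨⟨x, ?_, hxz⟩, ?_⟩
                · rcases hx with hx | hx
                  · exact absurd ⟨x, hx, hxz⟩ hzT
                  · exact hx
                · rintro (h | h)
                  · exact hzT h
                  · exact hzX h
            · rintro (⟨⟨x, hx, hxz⟩, hzX⟩ | ⟨⟨x, hx, hxz⟩, hz⟩)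
              · exact ⟨⟨x, Or.inl hx, hxz⟩, hzX⟩
              · exact ⟨⟨x, Or.inr hx, hxz⟩, fun h => hz (Or.inr h)⟩
          have hdis2 : Disjoint (cl R T \ X) E := by
            rw [Finset.disjoint_left]
            intro z hz hz'
            exact (Finset.mem_sdiff.1 hz').2 (Finset.mem_union_left _ (Finset.mem_sdiff.1 hz).1)
          simp only [hd] at h1
          rw [e3, Finset.card_union_of_disjoint hdis2, Finset.card_union_of_disjoint hdis] at h1
          push_cast at h1
          omega
        have c1 := Finset.card_le_card e2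
        rw [Finset.card_sdiff_of_subset hEsub] at c1
        have c2 : (cl R' {v}).card = (cl R {v}).card - D.card := by
          rw [e1, Finset.card_sdiff_of_subset hDcl]
        have c3 := Finset.card_le_card hEsub
        have c4 := Finset.card_le_card hDcl
        omega
      · have e1 : cl R' {v} = cl R {v} := by
          ext z
          rw [mem_cl, mem_cl]
          constructor
          · rintro ⟨x, hx, hxz⟩
            exact ⟨x, hx, hxz.1⟩
          · rintro ⟨x, hx, hxz⟩
            refine ⟨x, hx, hxz, ?_⟩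
            rw [Finset.mem_singleton] at hx
            subst hx
            exact fun h => hvX h.1
        rw [e1]
        have := Finset.card_le_card (hclsub (cl R {v}))
        omega
  have hback := hmin R' hR'R hCE'
  obtain ⟨z, hzL, hzT⟩ := Finset.exists_of_ssubset hT
  obtain ⟨x, hx, hxz⟩ := mem_cl.1 (Finset.mem_sdiff.1 hzL).1
  exact (hback x z hxz).2 ⟨hx, Finset.mem_sdiff.2 ⟨hzL, hzT⟩⟩

end Vale.Agent.P038.H710
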