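import Mathlib

/-!
# The square lemma: two Hall conditions and generic matrices
-/

namespace Vale.Agent.P038.H710

open Finset

/-- The generic field. -/
abbrev KK (V : Type*) := FractionRing (MvPolynomial (V × V) ℚ)

open Classical in
/-- Generic matrix supported on a relation. -/
noncomputable def gen {V : Type*} (R : V → V → Prop) (t x : V) : KK V :=
  if R x t then algebraMap (MvPolynomial (V × V) ℚ) (KK V) (MvPolynomial.X (t, x)) else 0

open Classical in
theorem gen_row {V : Type*} (R : V → V → Prop) (S T : Finset V)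
    (hall : ∀ S' ⊆ S, S'.card ≤ (T.filter fun t => ∃ x ∈ S', R x t).card)
    (φ : V → KK V) (hφ : ∀ t ∈ T, ∑ x ∈ S, gen R t x * φ x = 0) : ∀ x ∈ S, φ x = 0 := by
  have hH : ∃ f : S → V, Function.Injective f ∧ ∀ x : S, f x ∈ T.filter fun t => R x t := by
    rw [← Finset.all_card_le_biUnion_card_iff_exists_injective]
    intro s
    have h1 := hall (s.map (Function.Embedding.subtype _)) (by
      intro x hx
      obtain ⟨y, _, rfl⟩ := Finset.mem_map.1 hx
      exact y.2)
    rw [Finset.card_map] at h1
    refine h1.trans (Finset.card_le_card ?_)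
    intro t ht
    obtain ⟨ht1, x, hx, hxt⟩ := Finset.mem_filter.1 ht
    obtain ⟨y, hy, rfl⟩ := Finset.mem_map.1 hx
    exact Finset.mem_biUnion.2 ⟨y, hy, Finset.mem_filter.2 ⟨ht1, hxt⟩⟩
  obtain ⟨σ, hσ, hσT⟩ := hH
  set M0 : Matrix S S (MvPolynomial (V × V) ℚ) := Matrix.of fun i j =>
    if R j (σ i) then MvPolynomial.X (σ i, (j : V)) else 0 with hM0
  set M : Matrix S S (KK V) := Matrix.of fun i j => gen R (σ i) j with hM
  have hMM : M = (algebraMap (MvPolynomial (V × V) ℚ) (KK V)).mapMatrix M0 := by
    ext i j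
    simp only [hM, hM0, gen, RingHom.mapMatrix_apply, Matrix.map_apply, Matrix.of_apply]
    split_ifs <;> simp
  have hdet0 : M0.det ≠ 0 := by
    intro h0
    have h1 : (MvPolynomial.eval (fun p : V × V => if ∃ i : S, σ i = p.1 ∧ (i : V) = p.2 then
        (1 : ℚ) else 0)).mapMatrix M0 = 1 := by
      ext i j
      simp only [hM0, RingHom.mapMatrix_apply, Matrix.map_apply, Matrix.of_apply]
      by_cases hij : i = j
      · subst hij
        have hR : R i (σ i) := (Finset.mem_filter.1 (hσT i)).2
        rw [if_pos hR, MvPolynomial.eval_X, if_pos ⟨i, rfl, rfl⟩, Matrix.one_apply_eq]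
      · rw [Matrix.one_apply_ne hij]
        split_ifs with hR
        · rw [MvPolynomial.eval_X, if_neg]
          rintro ⟨k, hk1, hk2⟩
          have : k = i := hσ hk1
          subst this
          exact hij (Subtype.ext hk2)
        · simp
    have h2 := congrArg (MvPolynomial.eval (fun p : V × V =>
      if ∃ i : S, σ i = p.1 ∧ (i : V) = p.2 then (1 : ℚ) else 0)) h0
    rw [RingHom.map_det, h1, Matrix.det_one, map_zero] at h2
    exact one_ne_zero h2
  have hdet : M.det ≠ 0 := by
    rw [hMM, ← RingHom.map_det]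
    intro h0
    exact hdet0 ((IsFractionRing.injective (MvPolynomial (V × V) ℚ) (KK V)) (h0.trans
      (map_zero _).symm))
  have hv : M.mulVec (fun j : S => φ j) = 0 := by
    funext i
    have h1 := hφ (σ i) (Finset.mem_filter.1 (hσT i)).1
    rw [← Finset.sum_coe_sort] at h1
    simpa [Matrix.mulVec, dotProduct, hM] using h1
  have h0 := Matrix.eq_zero_of_mulVec_eq_zero hdet hv
  intro x hx
  exact congrFun h0 ⟨x, hx⟩

open Classical in
theorem sq_key {V : Type*} [Fintype V] (R : V → V → Prop) (Ah G H Eh : Finset (V × V))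
    (s1 : ∀ a a' x u, (a, x) ∈ Ah → R a' a → R x u → (a', u) ∈ Eh → (a', x) ∈ G)
    (s2 : ∀ a a' x u, (a, x) ∈ Ah → R a' a → R x u → (a', u) ∈ Eh → (a, u) ∈ H)
    (H1 : ∀ a, ∀ S : Finset V, (∀ x ∈ S, (a, x) ∈ Ah) →
      S.card ≤ (univ.filter fun u => (a, u) ∈ H ∧ ∃ x ∈ S, R x u).card)
    (H2 : ∀ u, ∀ S : Finset V, (∀ a' ∈ S, (a', u) ∈ Eh) →
      S.card ≤ (univ.filter fun a => (a, u) ∈ H ∧ ∃ a' ∈ S, R a' a).card) :
    Ah.card + Eh.card ≤ G.card + H.card := by
  set M1 : Matrix G Ah (KK V) := Matrix.of fun g p =>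
    if g.1.2 = p.1.2 then gen R p.1.1 g.1.1 else 0 with hM1
  set M2 : Matrix Eh G (KK V) := Matrix.of fun e g =>
    if e.1.1 = g.1.1 then gen R e.1.2 g.1.2 else 0 with hM2
  set M3 : Matrix H Ah (KK V) := Matrix.of fun h p =>
    if h.1.1 = p.1.1 then gen R h.1.2 p.1.2 else 0 with hM3
  set M4 : Matrix Eh H (KK V) := Matrix.of fun e h =>
    if e.1.2 = h.1.2 then gen R h.1.1 e.1.1 else 0 with hM4
  -- the square commutes
  have hcomm : M2 * M1 = M4 * M3 := by
    ext ⟨⟨a', u⟩, he⟩ ⟨⟨a, x⟩, hp⟩
    rw [Matrix.mul_apply, Matrix.mul_apply]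
    have e1 : ∑ g : G, M2 ⟨(a', u), he⟩ g * M1 g ⟨(a, x), hp⟩ =
        if (a', x) ∈ G then gen R u x * gen R a a' else 0 := by
      split_ifs with hG
      · rw [Finset.sum_eq_single (⟨(a', x), hG⟩ : G)]
        · simp [hM1, hM2]
        · rintro ⟨⟨b, y⟩, hb⟩ _ hne
          simp only [hM1, hM2, Matrix.of_apply]
          by_cases h1 : a' = b
          · by_cases h2 : y = x
            · subst h1; subst h2; exact absurd rfl hne
            · simp [h2]
          · simp [h1]
        · intro h; exact absurd (Finset.mem_univ _) h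
      · apply Finset.sum_eq_zero
        rintro ⟨⟨b, y⟩, hb⟩ _
        simp only [hM1, hM2, Matrix.of_apply]
        by_cases h1 : a' = b
        · by_cases h2 : y = x
          · subst h1; subst h2; exact absurd hb hG
          · simp [h2]
        · simp [h1]
    have e2 : ∑ h : H, M4 ⟨(a', u), he⟩ h * M3 h ⟨(a, x), hp⟩ =
        if (a, u) ∈ H then gen R u x * gen R a a' else 0 := by
      split_ifs with hG
      · rw [Finset.sum_eq_single (⟨(a, u), hG⟩ : H)]
        · simp [hM3, hM4, mul_comm]
        · rintro ⟨⟨b, y⟩, hb⟩ _ hne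
          simp only [hM3, hM4, Matrix.of_apply]
          by_cases h1 : u = y
          · by_cases h2 : b = a
            · subst h1; subst h2; exact absurd rfl hne
            · simp [h2]
          · simp [h1]
        · intro h; exact absurd (Finset.mem_univ _) h
      · apply Finset.sum_eq_zero
        rintro ⟨⟨b, y⟩, hb⟩ _
        simp only [hM3, hM4, Matrix.of_apply]
        by_cases h1 : u = y
        · by_cases h2 : b = a
          · subst h1; subst h2; exact absurd hb hG
          · simp [h2]
        · simp [h1]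
    rw [e1, e2]
    by_cases hxu : R x u
    · by_cases haa : R a' a
      · rw [if_pos (s1 a a' x u hp haa hxu he), if_pos (s2 a a' x u hp haa hxu he)]
      · have : gen R a a' = 0 := by simp [gen, haa]
        simp [this]
    · have : gen R u x = 0 := by simp [gen, hxu]
      simp [this]
  -- M3 is injective
  have inj3 : ∀ ψ : Ah → KK V, M3.mulVec ψ = 0 → ψ = 0 := by
    intro ψ hψ
    funext ⟨⟨a, x⟩, hax⟩
    set S : Finset V := univ.filter fun y => (a, y) ∈ Ah with hS
    set T : Finset V := univ.filter fun u => (a, u) ∈ H with hT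
    set φ : V → KK V := fun y => if h : (a, y) ∈ Ah then ψ ⟨(a, y), h⟩ else 0 with hφ
    have key := gen_row R S T (by
      intro S' hS'
      refine (H1 a S' fun y hy => (Finset.mem_filter.1 (hS' hy)).2).trans
        (Finset.card_le_card ?_)
      intro u hu
      obtain ⟨_, h1, h2⟩ := Finset.mem_filter.1 hu
      exact Finset.mem_filter.2 ⟨Finset.mem_filter.2 ⟨Finset.mem_univ _, h1⟩, h2⟩) φ (by
      intro t ht
      have htH : (a, t) ∈ H := (Finset.mem_filter.1 ht).2
      have h1 := congrFun hψ ⟨(a, t), htH⟩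
      simp only [Matrix.mulVec, dotProduct, Pi.zero_apply] at h1
      rw [← h1]
      symm
      rw [← Finset.sum_filter_add_sum_filter_not Finset.univ
        (fun p : Ah => p.1.1 = a)]
      have z2 : ∑ p ∈ Finset.univ.filter (fun p : Ah => ¬ p.1.1 = a),
          M3 ⟨(a, t), htH⟩ p * ψ p = 0 := by
        apply Finset.sum_eq_zero
        intro p hp
        have hp' : ¬ p.1.1 = a := (Finset.mem_filter.1 hp).2
        simp only [hM3, Matrix.of_apply]
        rw [if_neg (fun h => hp' h.symm), zero_mul]
      rw [z2, add_zero]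
      refine Finset.sum_bij' (fun p _ => p.1.2)
        (fun y hy => (⟨(a, y), (Finset.mem_filter.1 hy).2⟩ : Ah)) ?_ ?_ ?_ ?_ ?_
      · rintro ⟨⟨b, y⟩, hb⟩ hp
        have hb' : b = a := (Finset.mem_filter.1 hp).2
        subst hb'
        exact Finset.mem_filter.2 ⟨Finset.mem_univ _, hb⟩
      · intro y hy
        exact Finset.mem_filter.2 ⟨Finset.mem_univ _, rfl⟩
      · rintro ⟨⟨b, y⟩, hb⟩ hp
        have hb' : b = a := (Finset.mem_filter.1 hp).2
        subst hb'
        rfl
      · intro y hy
        rfl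
      · rintro ⟨⟨b, y⟩, hb⟩ hp
        have hb' : b = a := (Finset.mem_filter.1 hp).2
        subst hb'
        simp only [hM3, Matrix.of_apply, hφ]
        rw [dif_pos hb]
        simp)
    have h2 := key x (Finset.mem_filter.2 ⟨Finset.mem_univ _, hax⟩)
    simp only [hφ] at h2
    rw [dif_pos hax] at h2
    exact h2
  -- M4 transposed is injective
  have inj4 : ∀ ψ : Eh → KK V, M4.transpose.mulVec ψ = 0 → ψ = 0 := by
    intro ψ hψ
    funext ⟨⟨a', u⟩, hau⟩
    set S : Finset V := univ.filter fun y => (y, u) ∈ Eh with hS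
    set T : Finset V := univ.filter fun a => (a, u) ∈ H with hT
    set φ : V → KK V := fun y => if h : (y, u) ∈ Eh then ψ ⟨(y, u), h⟩ else 0 with hφ
    have key := gen_row R S T (by
      intro S' hS'
      refine (H2 u S' fun y hy => (Finset.mem_filter.1 (hS' hy)).2).trans
        (Finset.card_le_card ?_)
      intro u' hu
      obtain ⟨_, h1, h2⟩ := Finset.mem_filter.1 hu
      exact Finset.mem_filter.2 ⟨Finset.mem_filter.2 ⟨Finset.mem_univ _, h1⟩, h2⟩) φ (by
      intro t ht
      have htH : (t, u) ∈ H := (Finset.mem_filter.1 ht).2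
      have h1 := congrFun hψ ⟨(t, u), htH⟩
      simp only [Matrix.mulVec, dotProduct, Pi.zero_apply, Matrix.transpose_apply] at h1
      rw [← h1]
      symm
      rw [← Finset.sum_filter_add_sum_filter_not Finset.univ
        (fun p : Eh => p.1.2 = u)]
      have z2 : ∑ p ∈ Finset.univ.filter (fun p : Eh => ¬ p.1.2 = u),
          M4 p ⟨(t, u), htH⟩ * ψ p = 0 := by
        apply Finset.sum_eq_zero
        intro p hp
        have hp' : ¬ p.1.2 = u := (Finset.mem_filter.1 hp).2
        simp only [hM4, Matrix.of_apply]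
        rw [if_neg hp', zero_mul]
      rw [z2, add_zero]
      refine Finset.sum_bij' (fun p _ => p.1.1)
        (fun y hy => (⟨(y, u), (Finset.mem_filter.1 hy).2⟩ : Eh)) ?_ ?_ ?_ ?_ ?_
      · rintro ⟨⟨y, b⟩, hb⟩ hp
        have hb' : b = u := (Finset.mem_filter.1 hp).2
        subst hb'
        exact Finset.mem_filter.2 ⟨Finset.mem_univ _, hb⟩
      · intro y hy
        exact Finset.mem_filter.2 ⟨Finset.mem_univ _, rfl⟩
      · rintro ⟨⟨y, b⟩, hb⟩ hp
        have hb' : b = u := (Finset.mem_filter.1 hp).2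
        subst hb'
        rfl
      · intro y hy
        rfl
      · rintro ⟨⟨y, b⟩, hb⟩ hp
        have hb' : b = u := (Finset.mem_filter.1 hp).2
        subst hb'
        simp only [hM4, Matrix.of_apply, hφ]
        rw [dif_pos hb]
        simp)
    have h2 := key a' (Finset.mem_filter.2 ⟨Finset.mem_univ _, hau⟩)
    simp only [hφ] at h2
    rw [dif_pos hau] at h2
    exact h2
  -- dimension count
  have r1 := LinearMap.finrank_range_add_finrank_ker M1.mulVecLin
  have r4 := LinearMap.finrank_range_add_finrank_ker M4.mulVecLin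
  rw [Module.finrank_fintype_fun_eq_card, Fintype.card_coe] at r1 r4
  have b1 : Module.finrank (KK V) (LinearMap.range M1.mulVecLin) ≤ G.card := by
    have := Submodule.finrank_le (LinearMap.range M1.mulVecLin)
    rwa [Module.finrank_fintype_fun_eq_card, Fintype.card_coe] at this
  have b4 : Module.finrank (KK V) (LinearMap.range M4.mulVecLin) = Eh.card := by
    have h1 : M4.rank = M4.transpose.rank := (Matrix.rank_transpose M4).symm
    have h2 : M4.transpose.rank = Eh.card := by
      have h3 : Function.Injective M4.transpose.mulVecLin := by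
        rw [← LinearMap.ker_eq_bot, LinearMap.ker_eq_bot']
        intro ψ hψ
        exact inj4 ψ hψ
      have h4 := LinearMap.finrank_range_of_inj h3
      rw [Module.finrank_fintype_fun_eq_card, Fintype.card_coe] at h4
      exact h4
    exact h1.trans h2
  have hinj3 : Function.Injective M3.mulVecLin := by
    rw [← LinearMap.ker_eq_bot, LinearMap.ker_eq_bot']
    intro ψ hψ
    exact inj3 ψ hψ
  have hle : (LinearMap.ker M1.mulVecLin).map M3.mulVecLin ≤ LinearMap.ker M4.mulVecLin := by
    rintro _ ⟨ψ, hψ, rfl⟩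
    have h1 : M1.mulVec ψ = 0 := hψ
    change M4.mulVec (M3.mulVec ψ) = 0
    rw [Matrix.mulVec_mulVec, ← hcomm, ← Matrix.mulVec_mulVec, h1, Matrix.mulVec_zero]
  have h5 := Submodule.finrank_mono hle
  have h6 : Module.finrank (KK V) ((LinearMap.ker M1.mulVecLin).map M3.mulVecLin) =
      Module.finrank (KK V) (LinearMap.ker M1.mulVecLin) :=
    (LinearEquiv.finrank_eq (Submodule.equivMapOfInjective M3.mulVecLin hinj3 _)).symm
  omega

end Vale.Agent.P038.H710
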