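import Mathlib
import Vale.Agent.P038.H710.Sq

/-!
# The rotation inequality: inner minimum ≤ outer minimum
-/

namespace Vale.Agent.P038.H710

open Finset

variable {V : Type*} [Fintype V]

open Classical in
noncomputable def Eo (R : V → V → Prop) (B : Finset (V × V)) : Finset (V × V) :=
  univ.filter fun p => ∃ x, R x p.2 ∧ (p.1, x) ∈ B

open Classical in
noncomputable def Io (R : V → V → Prop) (B : Finset (V × V)) : Finset (V × V) :=
  univ.filter fun p => ∀ y, R p.2 y → (p.1, y) ∈ B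

open Classical in
noncomputable def Ao (R : V → V → Prop) (B : Finset (V × V)) : Finset (V × V) :=
  univ.filter fun p => ∀ z, R z p.1 → (z, p.2) ∈ B

open Classical in
noncomputable def Jo (R : V → V → Prop) (B : Finset (V × V)) : Finset (V × V) :=
  univ.filter fun p => ∃ y, R p.1 y ∧ (y, p.2) ∈ B

variable {R : V → V → Prop} {B U : Finset (V × V)}

theorem mem_Eo {a u : V} : (a, u) ∈ Eo R B ↔ ∃ x, R x u ∧ (a, x) ∈ B := by
  classical
  simp [Eo]

theorem mem_Io {a x : V} : (a, x) ∈ Io R B ↔ ∀ y, R x y → (a, y) ∈ B := by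
  classical
  simp [Io]

theorem mem_Ao {z b : V} : (z, b) ∈ Ao R B ↔ ∀ z', R z' z → (z', b) ∈ B := by
  classical
  simp [Ao]

theorem mem_Jo {x b : V} : (x, b) ∈ Jo R B ↔ ∃ y, R x y ∧ (y, b) ∈ B := by
  classical
  simp [Jo]

/-- Feasible pairs. -/
def Feas (R : V → V → Prop) (B U : Finset (V × V)) : Prop :=
  (∀ a b, R a b → (a, b) ∈ B) ∧ B ⊆ U ∧ ∀ a b, (a, b) ∈ U → R b a → a = b

noncomputable def Nin (R : V → V → Prop) (B U : Finset (V × V)) : ℤ :=
  (B.card : ℤ) - (Io R B).card + (Jo R U).card - U.card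

noncomputable def Nout (R : V → V → Prop) (B U : Finset (V × V)) : ℤ :=
  ((Eo R B).card : ℤ) - B.card + U.card - (Ao R U).card

/-- `(B, U)` minimises the outer functional. -/
def OMin (R : V → V → Prop) (B U : Finset (V × V)) : Prop :=
  Feas R B U ∧ ∀ B' U', Feas R B' U' → Nout R B U ≤ Nout R B' U'

open Classical in
theorem O3 (h : OMin R B U) (a : V) (S : Finset V) (hS : ∀ x ∈ S, (a, x) ∈ U) :
    (S.filter fun x => (a, x) ∉ B).card ≤
      (univ.filter fun u => (∃ x ∈ S, R x u) ∧ (a, u) ∉ Eo R B).card := by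
  obtain ⟨⟨f1, f2, f3⟩, hmin⟩ := h
  set S' := S.filter fun x => (a, x) ∉ B with hS'
  set T' := univ.filter fun u => (∃ x ∈ S, R x u) ∧ (a, u) ∉ Eo R B with hT'
  set B1 := B ∪ S'.image (fun x => (a, x)) with hB1
  have hF : Feas R B1 U := by
    refine ⟨fun x y hxy => Finset.mem_union_left _ (f1 x y hxy), ?_, f3⟩
    refine Finset.union_subset f2 ?_
    intro p hp
    obtain ⟨x, hx, rfl⟩ := Finset.mem_image.1 hp
    exact hS x (Finset.mem_filter.1 hx).1
  have h1 := hmin B1 U hF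
  have c1 : B1.card = B.card + S'.card := by
    rw [hB1, Finset.card_union_of_disjoint, Finset.card_image_of_injective]
    · intro x y hxy
      exact (Prod.mk.inj hxy).2
    · rw [Finset.disjoint_left]
      intro p hp hp'
      obtain ⟨x, hx, rfl⟩ := Finset.mem_image.1 hp'
      exact (Finset.mem_filter.1 hx).2 hp
  have c2 : (Eo R B1).card ≤ (Eo R B).card + T'.card := by
    have hsub : Eo R B1 ⊆ Eo R B ∪ T'.image (fun x => (a, x)) := by
      rintro ⟨c, u⟩ hcu
      by_cases hcu' : (c, u) ∈ Eo R B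
      · exact Finset.mem_union_left _ hcu'
      · obtain ⟨x, hxu, hx⟩ := mem_Eo.1 hcu
        rcases Finset.mem_union.1 hx with hx | hx
        · exact absurd (mem_Eo.2 ⟨x, hxu, hx⟩) hcu'
        · obtain ⟨y, hy, hyx⟩ := Finset.mem_image.1 hx
          obtain ⟨e1, e2⟩ := Prod.mk.inj hyx
          subst e1; subst e2
          refine Finset.mem_union_right _ (Finset.mem_image.2 ⟨u, ?_, rfl⟩)
          exact Finset.mem_filter.2 ⟨Finset.mem_univ _,
            ⟨y, (Finset.mem_filter.1 hy).1, hxu⟩, hcu'⟩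
    refine (Finset.card_le_card hsub).trans ((Finset.card_union_le _ _).trans ?_)
    have := Finset.card_image_le (s := T') (f := fun x => (a, x))
    omega
  simp only [Nout] at h1
  omega

open Classical in
theorem O4 (h : OMin R B U) (x : V) (T : Finset V) (hT : ∀ z ∈ T, (z, x) ∉ B) :
    (T.filter fun z => (z, x) ∈ U).card ≤
      (univ.filter fun z => (∃ z' ∈ T, R z' z) ∧ (z, x) ∈ Ao R U).card := by
  obtain ⟨⟨f1, f2, f3⟩, hmin⟩ := h
  set T' := T.filter fun z => (z, x) ∈ U with hT'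
  set S' := univ.filter fun z => (∃ z' ∈ T, R z' z) ∧ (z, x) ∈ Ao R U with hS'
  set U1 := U \ T'.image (fun z => (z, x)) with hU1
  have himg : T'.image (fun z => (z, x)) ⊆ U := by
    intro p hp
    obtain ⟨z, hz, rfl⟩ := Finset.mem_image.1 hp
    exact (Finset.mem_filter.1 hz).2
  have hF : Feas R B U1 := by
    refine ⟨f1, ?_, fun a b hab hba => f3 a b (Finset.mem_sdiff.1 hab).1 hba⟩
    intro p hp
    refine Finset.mem_sdiff.2 ⟨f2 hp, ?_⟩
    intro hp'
    obtain ⟨z, hz, rfl⟩ := Finset.mem_image.1 hp'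
    exact hT z (Finset.mem_filter.1 hz).1 hp
  have h1 := hmin B U1 hF
  have c1 : U1.card = U.card - T'.card := by
    rw [hU1, Finset.card_sdiff_of_subset himg, Finset.card_image_of_injective]
    intro y z hyz
    exact (Prod.mk.inj hyz).1
  have c1' : T'.card ≤ U.card := by
    have := Finset.card_le_card himg
    rwa [Finset.card_image_of_injective] at this
    intro y z hyz
    exact (Prod.mk.inj hyz).1
  have c2 : (Ao R U).card ≤ (Ao R U1).card + S'.card := by
    have hsub : Ao R U ⊆ Ao R U1 ∪ S'.image (fun z => (z, x)) := by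
      rintro ⟨z, b⟩ hzb
      by_cases hzb' : (z, b) ∈ Ao R U1
      · exact Finset.mem_union_left _ hzb'
      · rw [mem_Ao] at hzb'
        push Not at hzb'
        obtain ⟨z', hz'z, hz'⟩ := hzb'
        have hz'U : (z', b) ∈ U := mem_Ao.1 hzb z' hz'z
        have : (z', b) ∈ T'.image (fun z => (z, x)) := by
          by_contra hn
          exact hz' (Finset.mem_sdiff.2 ⟨hz'U, hn⟩)
        obtain ⟨y, hy, hyx⟩ := Finset.mem_image.1 this
        obtain ⟨e1, e2⟩ := Prod.mk.inj hyx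
        subst e1; subst e2
        refine Finset.mem_union_right _ (Finset.mem_image.2 ⟨z, ?_, rfl⟩)
        exact Finset.mem_filter.2 ⟨Finset.mem_univ _, ⟨y, (Finset.mem_filter.1 hy).1, hz'z⟩, hzb⟩
    refine (Finset.card_le_card hsub).trans ((Finset.card_union_le _ _).trans ?_)
    have := Finset.card_image_le (s := S') (f := fun z => (z, x))
    omega
  simp only [Nout] at h1
  omega

open Classical in
theorem H1aux (h : OMin R B U) (S s : Finset V)
    (hS : ∀ a' ∈ s, ∀ x ∈ S, (a', x) ∈ U) :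
    (S.filter fun x => ¬ ∀ a' ∈ s, (a', x) ∈ B).card ≤
      (univ.filter fun u => (∃ x ∈ S, R x u) ∧ ¬ ∀ a' ∈ s, (a', u) ∈ Eo R B).card := by
  induction s using Finset.induction_on with
  | empty => simp
  | insert b s hb ih =>
    have ih' := ih fun a' ha' => hS a' (Finset.mem_insert_of_mem ha')
    set S' := S.filter fun x => ∀ a' ∈ s, (a', x) ∈ B with hS'
    have o3 := O3 h b S' fun x hx => hS b (Finset.mem_insert_self _ _) x (Finset.mem_filter.1 hx).1
    have e1 : (S.filter fun x => ¬ ∀ a' ∈ insert b s, (a', x) ∈ B) =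
        (S.filter fun x => ¬ ∀ a' ∈ s, (a', x) ∈ B) ∪ (S'.filter fun x => (b, x) ∉ B) := by
      ext x
      simp only [Finset.mem_filter, Finset.mem_union, hS', Finset.forall_mem_insert]
      tauto
    have e2 : (univ.filter fun u => (∃ x ∈ S, R x u) ∧ ¬ ∀ a' ∈ s, (a', u) ∈ Eo R B) ∪
        (univ.filter fun u => (∃ x ∈ S', R x u) ∧ (b, u) ∉ Eo R B) ⊆
        univ.filter fun u => (∃ x ∈ S, R x u) ∧ ¬ ∀ a' ∈ insert b s, (a', u) ∈ Eo R B := by
      intro u hu
      rcases Finset.mem_union.1 hu with hu | hu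
      · obtain ⟨_, h1, h2⟩ := Finset.mem_filter.1 hu
        refine Finset.mem_filter.2 ⟨Finset.mem_univ _, h1, fun h3 => h2 fun a' ha' =>
          h3 a' (Finset.mem_insert_of_mem ha')⟩
      · obtain ⟨_, ⟨x, hx, hxu⟩, h2⟩ := Finset.mem_filter.1 hu
        exact Finset.mem_filter.2 ⟨Finset.mem_univ _, ⟨x, (Finset.mem_filter.1 hx).1, hxu⟩,
          fun h3 => h2 (h3 b (Finset.mem_insert_self _ _))⟩
    have d2 : Disjoint (univ.filter fun u => (∃ x ∈ S, R x u) ∧ ¬ ∀ a' ∈ s, (a', u) ∈ Eo R B)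
        (univ.filter fun u => (∃ x ∈ S', R x u) ∧ (b, u) ∉ Eo R B) := by
      rw [Finset.disjoint_left]
      intro u hu hu'
      obtain ⟨_, ⟨x, hx, hxu⟩, _⟩ := Finset.mem_filter.1 hu'
      exact (Finset.mem_filter.1 hu).2.2 fun a' ha' =>
        mem_Eo.2 ⟨x, hxu, (Finset.mem_filter.1 hx).2 a' ha'⟩
    rw [e1]
    refine (Finset.card_union_le _ _).trans ?_
    refine (add_le_add ih' o3).trans ?_
    rw [← Finset.card_union_of_disjoint d2]
    exact Finset.card_le_card e2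

open Classical in
theorem H2aux (h : OMin R B U) (S s : Finset V)
    (hS : ∀ y ∈ s, ∀ a' ∈ S, (a', y) ∉ B) :
    (S.filter fun a' => ∃ x ∈ s, (a', x) ∈ U).card ≤
      (univ.filter fun z => (∃ a' ∈ S, R a' z) ∧ ∃ x ∈ s, (z, x) ∈ Ao R U).card := by
  induction s using Finset.induction_on with
  | empty => simp
  | insert b s hb ih =>
    have ih' := ih fun a' ha' => hS a' (Finset.mem_insert_of_mem ha')
    set S' := S.filter fun a' => ∀ x ∈ s, (a', x) ∉ U with hS'
    have o4 := O4 h b S' fun z hz => hS b (Finset.mem_insert_self _ _) z (Finset.mem_filter.1 hz).1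
    have e1 : (S.filter fun a' => ∃ x ∈ insert b s, (a', x) ∈ U) =
        (S.filter fun a' => ∃ x ∈ s, (a', x) ∈ U) ∪ (S'.filter fun z => (z, b) ∈ U) := by
      ext a'
      simp only [Finset.mem_filter, Finset.mem_union, hS', Finset.exists_mem_insert]
      constructor
      · rintro ⟨h1, h2 | h2⟩
        · by_cases h3 : ∃ x ∈ s, (a', x) ∈ U
          · exact Or.inl ⟨h1, h3⟩
          · push Not at h3
            exact Or.inr ⟨⟨h1, h3⟩, h2⟩
        · exact Or.inl ⟨h1, h2⟩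
      · rintro (⟨h1, h2⟩ | ⟨⟨h1, _⟩, h2⟩)
        · exact ⟨h1, Or.inr h2⟩
        · exact ⟨h1, Or.inl h2⟩
    have e2 : (univ.filter fun z => (∃ a' ∈ S, R a' z) ∧ ∃ x ∈ s, (z, x) ∈ Ao R U) ∪
        (univ.filter fun z => (∃ a' ∈ S', R a' z) ∧ (z, b) ∈ Ao R U) ⊆
        univ.filter fun z => (∃ a' ∈ S, R a' z) ∧ ∃ x ∈ insert b s, (z, x) ∈ Ao R U := by
      intro z hz
      rcases Finset.mem_union.1 hz with hz | hz
      · obtain ⟨_, h1, x, hx, h2⟩ := Finset.mem_filter.1 hz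
        exact Finset.mem_filter.2 ⟨Finset.mem_univ _, h1, x, Finset.mem_insert_of_mem hx, h2⟩
      · obtain ⟨_, ⟨a', ha', haz⟩, h2⟩ := Finset.mem_filter.1 hz
        exact Finset.mem_filter.2 ⟨Finset.mem_univ _, ⟨a', (Finset.mem_filter.1 ha').1, haz⟩,
          b, Finset.mem_insert_self _ _, h2⟩
    have d2 : Disjoint
        (univ.filter fun z => (∃ a' ∈ S, R a' z) ∧ ∃ x ∈ s, (z, x) ∈ Ao R U)
        (univ.filter fun z => (∃ a' ∈ S', R a' z) ∧ (z, b) ∈ Ao R U) := by
      rw [Finset.disjoint_left]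
      intro z hz hz'
      obtain ⟨_, _, x, hx, h2⟩ := Finset.mem_filter.1 hz
      obtain ⟨_, ⟨a', ha', haz⟩, _⟩ := Finset.mem_filter.1 hz'
      exact (Finset.mem_filter.1 ha').2 x hx (mem_Ao.1 h2 a' haz)
    rw [e1]
    refine (Finset.card_union_le _ _).trans ?_
    refine (add_le_add ih' o4).trans ?_
    rw [← Finset.card_union_of_disjoint d2]
    exact Finset.card_le_card e2

open Classical in
/-- The key inequality at an outer minimiser. -/
theorem key (h : OMin R B U) :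
    (Ao R U \ Ao R B).card + (Eo R U \ Eo R B).card ≤
      (U \ B).card + (Eo R (Ao R U) \ Ao R (Eo R B)).card := by
  have hBU := h.1.2.1
  refine sq_key R _ _ _ _ ?_ ?_ ?_ ?_
  · intro a a' x u h1 h2 h3 h4
    obtain ⟨h1U, _⟩ := Finset.mem_sdiff.1 h1
    obtain ⟨_, h4B⟩ := Finset.mem_sdiff.1 h4
    exact Finset.mem_sdiff.2 ⟨mem_Ao.1 h1U a' h2, fun h5 => h4B (mem_Eo.2 ⟨x, h3, h5⟩)⟩
  · intro a a' x u h1 h2 h3 h4
    obtain ⟨h1U, _⟩ := Finset.mem_sdiff.1 h1
    obtain ⟨_, h4B⟩ := Finset.mem_sdiff.1 h4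
    exact Finset.mem_sdiff.2 ⟨mem_Eo.2 ⟨x, h3, h1U⟩, fun h5 => h4B (mem_Ao.1 h5 a' h2)⟩
  · intro a S hS
    have h1 := H1aux h S (univ.filter fun a' => R a' a) (by
      intro a' ha' x hx
      exact mem_Ao.1 (Finset.mem_sdiff.1 (hS x hx)).1 a' (Finset.mem_filter.1 ha').2)
    have e1 : (S.filter fun x => ¬ ∀ a' ∈ univ.filter (fun a' => R a' a), (a', x) ∈ B) = S := by
      rw [Finset.filter_eq_self]
      intro x hx h2
      exact (Finset.mem_sdiff.1 (hS x hx)).2 (mem_Ao.2 fun z hz =>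
        h2 z (Finset.mem_filter.2 ⟨Finset.mem_univ _, hz⟩))
    rw [e1] at h1
    refine h1.trans (Finset.card_le_card ?_)
    intro u hu
    obtain ⟨_, ⟨x, hx, hxu⟩, h2⟩ := Finset.mem_filter.1 hu
    refine Finset.mem_filter.2 ⟨Finset.mem_univ _, Finset.mem_sdiff.2 ⟨?_, ?_⟩, x, hx, hxu⟩
    · exact mem_Eo.2 ⟨x, hxu, (Finset.mem_sdiff.1 (hS x hx)).1⟩
    · intro h3
      exact h2 fun a' ha' => mem_Ao.1 h3 a' (Finset.mem_filter.1 ha').2
  · intro u S hS
    have h1 := H2aux h S (univ.filter fun x => R x u) (by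
      intro y hy a' ha' h2
      exact (Finset.mem_sdiff.1 (hS a' ha')).2 (mem_Eo.2 ⟨y, (Finset.mem_filter.1 hy).2, h2⟩))
    refine le_trans ?_ (h1.trans (Finset.card_le_card ?_))
    · apply Finset.card_le_card
      intro a' ha'
      obtain ⟨x, hxu, hx⟩ := mem_Eo.1 (Finset.mem_sdiff.1 (hS a' ha')).1
      exact Finset.mem_filter.2 ⟨ha', x, Finset.mem_filter.2 ⟨Finset.mem_univ _, hxu⟩, hx⟩
    intro z hz
    obtain ⟨_, ⟨a', ha', haz⟩, x, hx, h2⟩ := Finset.mem_filter.1 hz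
    refine Finset.mem_filter.2 ⟨Finset.mem_univ _, Finset.mem_sdiff.2 ⟨?_, ?_⟩, a', ha', haz⟩
    · exact mem_Eo.2 ⟨x, (Finset.mem_filter.1 hx).2, h2⟩
    · intro h3
      exact (Finset.mem_sdiff.1 (hS a' ha')).2 (mem_Ao.1 h3 a' haz)

open Classical in
/-- The rotation: from an outer minimiser to an inner competitor. -/
theorem rot (hrefl : ∀ a, R a a) (h : OMin R B U) :
    ∃ B' U', Feas R B' U' ∧ Nin R B' U' ≤ Nout R B U := by
  have hk := key h
  obtain ⟨⟨f1, f2, f3⟩, _⟩ := h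
  set P := Eo R (Ao R U) with hP
  set Q := Ao R (Eo R B) with hQ
  set B' := P ∩ Q with hB'
  set U' := P ∪ Q.filter (fun p => R p.2 p.1 → p.1 = p.2) with hU'
  have hRQ : ∀ a b, R a b → (a, b) ∈ Q := by
    intro a b hab
    exact mem_Ao.2 fun z hz => mem_Eo.2 ⟨a, hab, f1 z a hz⟩
  have hDA : ∀ a, (a, a) ∈ Ao R U := fun a => mem_Ao.2 fun z hz => f2 (f1 z a hz)
  have hRP : ∀ a b, R a b → (a, b) ∈ P := fun a b hab => mem_Eo.2 ⟨a, hab, hDA a⟩
  have hAU : Ao R U ⊆ U := by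
    rintro ⟨z, b⟩ hzb
    exact mem_Ao.1 hzb z (hrefl z)
  have hF : Feas R B' U' := by
    refine ⟨fun a b hab => Finset.mem_inter.2 ⟨hRP a b hab, hRQ a b hab⟩, ?_, ?_⟩
    · intro p hp
      exact Finset.mem_union_left _ (Finset.mem_inter.1 hp).1
    · intro z y hzy hyz
      rcases Finset.mem_union.1 hzy with hzy | hzy
      · obtain ⟨x, hxy, hx⟩ := mem_Eo.1 hzy
        have h1 : (y, x) ∈ U := mem_Ao.1 hx y hyz
        have h2 : y = x := f3 y x h1 hxy
        subst h2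
        exact f3 z y (hAU hx) hyz
      · exact (Finset.mem_filter.1 hzy).2 hyz
  refine ⟨B', U', hF, ?_⟩
  have c1 : (Ao R B).card ≤ (Io R B').card := by
    apply Finset.card_le_card
    rintro ⟨z, b⟩ hzb
    rw [mem_Io]
    intro y hby
    refine Finset.mem_inter.2 ⟨?_, ?_⟩
    · exact mem_Eo.2 ⟨b, hby, mem_Ao.2 fun z' hz' => f2 (mem_Ao.1 hzb z' hz')⟩
    · exact mem_Ao.2 fun z' hz' => mem_Eo.2 ⟨b, hby, mem_Ao.1 hzb z' hz'⟩
  have c2 : (Jo R U').card ≤ (Eo R U).card := by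
    apply Finset.card_le_card
    rintro ⟨x, b⟩ hxb
    obtain ⟨y, hxy, hy⟩ := mem_Jo.1 hxb
    rcases Finset.mem_union.1 hy with hy | hy
    · obtain ⟨c, hcb, hc⟩ := mem_Eo.1 hy
      exact mem_Eo.2 ⟨c, hcb, mem_Ao.1 hc x hxy⟩
    · obtain ⟨c, hcb, hc⟩ := mem_Eo.1 (mem_Ao.1 (Finset.mem_filter.1 hy).1 x hxy)
      exact mem_Eo.2 ⟨c, hcb, f2 hc⟩
  have c3 : B'.card + (P \ Q).card ≤ U'.card := by
    have h1 : B'.card + (P \ Q).card = P.card := by
      rw [hB']
      exact Finset.card_inter_add_card_sdiff P Q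
    rw [h1]
    exact Finset.card_le_card Finset.subset_union_left
  have hAB : Ao R B ⊆ Ao R U := by
    rintro ⟨z, b⟩ hzb
    exact mem_Ao.2 fun z' hz' => f2 (mem_Ao.1 hzb z' hz')
  have hEB : Eo R B ⊆ Eo R U := by
    rintro ⟨z, b⟩ hzb
    obtain ⟨x, hx, hx'⟩ := mem_Eo.1 hzb
    exact mem_Eo.2 ⟨x, hx, f2 hx'⟩
  have d1 := Finset.card_sdiff_add_card_eq_card hAB
  have d2 := Finset.card_sdiff_add_card_eq_card hEB
  have d3 := Finset.card_sdiff_add_card_eq_card f2
  simp only [Nin, Nout]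
  omega

end Vale.Agent.P038.H710
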